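import Vale.Agent.P106.R.C.Defs2

/-! # P106 / R : elementary facts about the conformal boxes (helper428)

* `vol_ge_one`, `vol_pos`; `ownB` : the box of one plank, admissible, of volume `1`. -/

set_option autoImplicit false

namespace Vale.Agent.P106.R.C2

theorem rr_pos (n c : ℕ) : (0 : ℝ) < (1 / 2 : ℝ) ^ (c * n) := by positivity

theorem rr_le (n c : ℕ) : (1 / 2 : ℝ) ^ (c * n) ≤ 1 := pow_le_one₀ (by norm_num) (by norm_num)

theorem hh_pos (n h c : ℕ) : 0 < W.hh n h c := by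
  unfold W.hh
  positivity

/-- `r ^ 2 ≤ H` -/
theorem rr_sq_le (n h c : ℕ) : ((1 / 2 : ℝ) ^ (c * n)) ^ 2 ≤ W.hh n h c := by
  unfold W.hh
  have e : ((1 / 2 : ℝ) ^ (c * n)) ^ 2 = 1 / 2 ^ (2 * c * n) := by
    rw [← pow_mul, div_pow, one_pow]
    congr 2
    ring
  rw [e]
  refine div_le_div_of_nonneg_right (one_le_pow₀ (by norm_num)) (by positivity)

theorem vol_ge_one {B : W.Cbx} {c r H : ℝ} (hr : 0 < r) (h : B.ok c r H) : 1 ≤ B.vol r H := by
  unfold W.Cbx.vol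
  have h1 : 1 ≤ B.u1 * B.u2 / r ^ 2 := by
    rw [one_le_div (by positivity), sq]
    exact mul_le_mul h.r1 (h.r1.trans h.u12) hr.le (hr.le.trans h.r1)
  calc (1 : ℝ) = 1 * 1 := (one_mul 1).symm
    _ ≤ _ := mul_le_mul h1 (le_max_left _ _) zero_le_one (zero_le_one.trans h1)

theorem vol_pos {B : W.Cbx} {c r H : ℝ} (hr : 0 < r) (h : B.ok c r H) : 0 < B.vol r H := one_pos.trans_le (vol_ge_one hr h)

/-- the box of one plank -/
noncomputable def ownB (n h c : ℕ) (S : Nd) : W.Cbx :=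
  ⟨0, (1 / 2 : ℝ) ^ (c * n), (1 / 2 : ℝ) ^ (c * n), 0, 0, W.ry n c S.toW, W.s0 n c S.τ, W.rz n h c S.toW⟩

theorem own_ok (n h c : ℕ) (S : Nd) : (ownB n h c S).ok (1 / 8) ((1 / 2 : ℝ) ^ (c * n)) (W.hh n h c) := by
  have h0 := (rr_pos n c).le
  refine ⟨le_rfl, le_rfl, rr_le n c, ?_, ?_, ?_, ?_⟩ <;> simp [ownB]

theorem own_vol (n h c : ℕ) (S : Nd) : (ownB n h c S).vol ((1 / 2 : ℝ) ^ (c * n)) (W.hh n h c) = 1 := by
  have h0 := rr_pos n c
  unfold W.Cbx.vol ownB
  simp only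
  rw [← sq, div_self (by positivity), one_mul]
  refine max_eq_left ?_
  rw [div_le_one (hh_pos n h c)]
  exact rr_sq_le n h c

theorem own_In (n h c : ℕ) (S : Nd) : W.InB n h c (ownB n h c S) S.toW := by
  have h0 := (rr_pos n c).le
  have h1 : (0 : ℝ) ≤ max (((1 / 2 : ℝ) ^ (c * n)) ^ 2) (W.hh n h c) := le_max_of_le_left (by positivity)
  have e : S.toW.b.τ = S.τ := rfl
  refine ⟨fun k => ?_, fun k => ?_, ?_, ?_, ?_⟩
  · simp only [ownB, sub_self, abs_zero]; exact h0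
  · simp only [ownB, e, sub_self, abs_zero]; exact h0
  · simp only [ownB, e, sub_self, mul_zero, Finset.sum_const_zero, add_zero, abs_zero]; exact h1
  · simp only [ownB, sub_self, fn, Pi.zero_apply, mul_zero, zero_mul, add_zero, abs_zero, sub_zero, neg_zero]
    exact h0
  · simp only [ownB, e, sub_self, fn, Pi.zero_apply, mul_zero, zero_mul, add_zero, abs_zero, sub_zero, neg_zero, zero_div,
      Finset.sum_const_zero]
    simpa using h0

end Vale.Agent.P106.R.C2
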