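import Vale.Agent.P106.W.Defs

/-! # P106 / R : the discrete multiscale object, node with four fields (helper428; copy of P122/C/Defs2, helper958)

Same text as `P122/C/Defs2` over a node `(τ, o, T, w)`; `s : Sl` bundles the slopes of the caps (`CoeFun`), the shift `g` of the
thin coordinate `w` between a piece and its children, and the thickness exponent `h`.  `Slp.cone` : the slopes and shifts are
those of the truncated cone (`W/Defs`). -/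

set_option autoImplicit false

namespace Vale.Agent.P106.R.C2

export Vale.Agent.P122.C2 (Z2 par kids Cap fw fn)

/-- node: cap, offset, time block, thin coordinate -/
@[ext] structure Nd where
  τ : Z2
  o : Z2
  T : ℤ
  w : ℤ
deriving DecidableEq

/-- slopes of the caps, shift `g i τ o T τ'` of the thin coordinate between the piece `(τ, o, T)` of level `i` and its child
`τ'`, thickness `2^(h n)` -/
structure Sl where
  f : ℕ → Z2 → Fin 2 → ℝ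
  g : ℕ → Z2 → Z2 → ℤ → Z2 → ℤ
  h : ℕ

instance : CoeFun Sl fun _ => ℕ → Z2 → Fin 2 → ℝ := ⟨Sl.f⟩

/-- the truncated cone of `W/Defs` -/
noncomputable def coneSl (n h : ℕ) : Sl := ⟨W.s0 n, fun _ τ o T τ' => ⌊W.tl n h ⟨τ, o, T⟩ τ'⌋, h⟩

/-- the node of `W/Defs` -/
def Nd.toW (S : Nd) : W.Nd := ⟨⟨S.τ, S.o, S.T⟩, S.w⟩

/-- the piece `σ` (radius of the next level) around the tube -/
noncomputable def Nd.sg (n : ℕ) (S : Nd) : Nd := ⟨S.τ, fun k => S.o k / 2 ^ n, S.T, S.w⟩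

/-- the tube of level `i + 1` with cap `τ'` through the piece `σ` of level `i` -/
noncomputable def Nd.ch (s : Sl) (n i : ℕ) (σ : Nd) (τ' : Z2) : Nd :=
  ⟨τ', fun k => ⌊(σ.o k : ℝ) - ((σ.T % 2 ^ (2 * n) : ℤ) : ℝ) * 2 ^ (2 * i * n) * s (i + 1) τ' k / 2 ^ ((i + 1) * n)⌋,
    σ.T / 2 ^ (2 * n), σ.w + s.g i σ.τ σ.o σ.T τ'⟩

/-- slopes of the caps -/
structure Slp (C : ℝ) (n K : ℕ) (s : Sl) : Prop where
  bd : ∀ i τ k, i ≤ K → Cap n i τ → |s i τ k| ≤ 1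
  nest : ∀ i τ k, i < K → Cap n (i + 1) τ → |s (i + 1) τ k - s i (par n τ) k| ≤ C / 2 ^ (i * n)
  lip : ∀ i τ τ' k, i ≤ K → Cap n i τ → Cap n i τ' →
    |s i τ k - s i τ' k| ≤ C * (|(τ 0 : ℝ) - τ' 0| + |(τ 1 : ℝ) - τ' 1| + 1) / 2 ^ (i * n)
  colip : ∀ i τ τ', i ≤ K → Cap n i τ → Cap n i τ' →
    |(τ 0 : ℝ) - τ' 0| + |(τ 1 : ℝ) - τ' 1| ≤ C * (2 ^ (i * n) * (|s i τ 0 - s i τ' 0| + |s i τ 1 - s i τ' 1|) + 1)
  /-- size of the shift of the thin coordinate -/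
  thin : ∀ i τ (o : Z2) (T : ℤ) τ', i < K → Cap n i τ → τ' ∈ kids n τ →
    |(s.g i τ o T τ' : ℝ)| ≤ C * (2 ^ (2 * K * n) + 2 ^ ((i + 1) * n) * (|(o 0 : ℝ)| + |(o 1 : ℝ)|) + 2 ^ (2 * i * n) * |(T : ℝ)|)
  /-- truncated cone -/
  cone : s = coneSl n s.h

/-- multiscale amplitudes. `A i S G` = amplitude on the tube `S` (level `i`) of the sum of the pieces of the caps in `G`
(children of `S.τ`), `a i S` = amplitude of the piece of the cap `S.τ`. -/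
structure Amp (C : ℝ) (n K : ℕ) where
  s : Sl
  slp : Slp C n K s
  A : ℕ → Nd → Finset Z2 → ℝ
  a : ℕ → Nd → ℝ
  a0 : ∀ i S, 0 ≤ a i S
  A0 : ∀ i S G, 0 ≤ A i S G
  kid : ∀ i S, i < K → Cap n i S.τ → a i S ≤ A i S (kids n S.τ)
  tri : ∀ i S G G', i < K → Disjoint G G' → A i S (G ∪ G') ≤ A i S G + A i S G'
  /-- [L] -/
  L1 : ∀ i S G, i < K → Cap n i S.τ → G ⊆ kids n S.τ → A i S G ≤ C * ∑ τ' ∈ G, a (i + 1) ((S.sg n).ch s n i τ')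
  /-- [B1] local `L²` on discs -/
  B1 : ∀ i σ G, i < K → Cap n i σ.τ → G ⊆ kids n σ.τ → ∀ U : Finset Nd, (∀ S ∈ U, S.sg n = σ) →
    ∑ S ∈ U, A i S G ^ 2 ≤ C * 2 ^ (2 * n) * ∑ τ' ∈ G, a (i + 1) (σ.ch s n i τ') ^ 2
  /-- [B2] local `L²` along the direction `θ` on strips; `ψ` = direction of the columns (in the index plane): the frequency
  coordinate along `θ`. A column and the normal slope determine the cap up to `O(1)` (definiteness). -/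
  B2 : ∀ i τ θ, 1 ≤ i → i < K → Cap n i τ → ∃ ψ : Fin 2 → ℝ, |ψ 0| ≤ C ∧ |ψ 1| ≤ C ∧
    (∀ τ' ∈ kids n τ, ∀ τ'' ∈ kids n τ, |(τ' 0 : ℝ) - τ'' 0| + |(τ' 1 : ℝ) - τ'' 1| ≤
      C * (|ψ 0 * (τ' 0 - τ'' 0) + ψ 1 * (τ' 1 - τ'' 1)| + 2 ^ ((i + 1) * n) * |fn θ (s (i + 1) τ') - fn θ (s (i + 1) τ'')| + 1)) ∧
    ∀ (σ : Nd) (G : Finset Z2) (k : ℕ), σ.τ = τ → G ⊆ kids n τ →
      (∀ r : ℝ, (G.filter fun τ' => |ψ 0 * τ' 0 + ψ 1 * τ' 1 - r| ≤ 1).card ≤ k) →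
      ∀ (U : Finset Nd) (r : ℝ), (∀ S ∈ U, S.sg n = σ ∧ |fn θ (fun j => (S.o j : ℝ)) - r| ≤ 1) →
        ∑ S ∈ U, A i S G ^ 2 ≤ C * 2 ^ n * k * ∑ τ' ∈ G, a (i + 1) (σ.ch s n i τ') ^ 2
  /-- support -/
  supp : ∀ S, a K S ≠ 0 → S.T = 0 ∧ Cap n K S.τ ∧ ∀ k, |(S.o k : ℝ)| ≤ C * 2 ^ (K * n)
  /-- support, thin coordinate -/
  suppw : ∀ S, a K S ≠ 0 → |(S.w : ℝ)| * 2 ^ (s.h * n) ≤ C * 2 ^ (2 * K * n)

/-- Katz-Tao condition at the top level, full class of conformal boxes -/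
def KTop {C : ℝ} {n K : ℕ} (F : Amp C n K) (Λ : ℝ) : Prop :=
  ∀ (B : W.Cbx) (U : Finset Nd), B.ok (1 / 8) ((1 / 2 : ℝ) ^ (K * n)) (W.hh n F.s.h K) →
    (∀ S ∈ U, W.InB n F.s.h K B S.toW) → ∑ S ∈ U, F.a K S ^ 2 ≤ Λ * B.vol ((1 / 2 : ℝ) ^ (K * n)) (W.hh n F.s.h K)

end Vale.Agent.P106.R.C2
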