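import Vale.Agent.P106.R.C.Val

/-! # P106 / W / C : size of the thin coordinate -/

set_option autoImplicit false

namespace Vale.Agent.P106.R.C2

open Finset

variable {C : ℝ} {n K : ℕ} {F : Amp C n K}

/-- bound of the thin coordinate of all nodes, in units `2 ^ (2 K n)` -/
noncomputable def wc (C : ℝ) (K : ℕ) : ℝ := C + K * (C * (2 * (C + 3 * K) + 4))

theorem wc_nonneg {C : ℝ} {K : ℕ} (hC : 0 ≤ C) : 0 ≤ wc C K := by unfold wc; positivity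

/-- one step -/
theorem w_step (hC : 0 ≤ C) {B : ℝ} {i m : ℕ} (him : i + (m + 1) = K) {S : Nd} (hS : Cap n i S.τ) {τ' : Z2}
    (hτ : τ' ∈ kids n S.τ) (hT0 : 0 ≤ S.T) (hT : S.T < 2 ^ (2 * (m + 1) * n))
    (ho : ∀ k, |(S.o k : ℝ)| ≤ B * 2 ^ ((K + (m + 1)) * n)) :
    |(S.w : ℝ)| ≤ |((((S.sg n).ch F.s n i τ').w : ℤ) : ℝ)| + C * (2 * B + 4) * 2 ^ (2 * K * n) := by
  have h1 := F.slp.thin i S.τ (fun k => S.o k / 2 ^ n) S.T τ' (by omega) hS hτ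
  have hw : ((((S.sg n).ch F.s n i τ').w : ℤ) : ℝ) = (S.w : ℝ) + (F.s.g i S.τ (fun k => S.o k / 2 ^ n) S.T τ' : ℤ) := by
    have : ((S.sg n).ch F.s n i τ').w = S.w + F.s.g i S.τ (fun k => S.o k / 2 ^ n) S.T τ' := rfl
    rw [this]
    push_cast
    rfl
  have hn : (0 : ℤ) < 2 ^ n := by positivity
  have hn' : (0 : ℝ) < 2 ^ n := by positivity
  have ho' : ∀ k, 2 ^ ((i + 1) * n) * |((S.o k / 2 ^ n : ℤ) : ℝ)| ≤ (B + 1) * 2 ^ (2 * K * n) := by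
    intro k
    have e1 := Int.emod_add_mul_ediv (S.o k) (2 ^ n)
    have e2 := Int.emod_nonneg (S.o k) hn.ne'
    have e3 := Int.emod_lt_of_pos (S.o k) hn
    have e1' : ((S.o k % 2 ^ n : ℤ) : ℝ) + 2 ^ n * ((S.o k / 2 ^ n : ℤ) : ℝ) = (S.o k : ℝ) := by exact_mod_cast e1
    have e2' : (0 : ℝ) ≤ ((S.o k % 2 ^ n : ℤ) : ℝ) := by exact_mod_cast e2
    have e3' : ((S.o k % 2 ^ n : ℤ) : ℝ) ≤ 2 ^ n := by exact_mod_cast e3.le
    have h2 : 2 ^ n * |((S.o k / 2 ^ n : ℤ) : ℝ)| ≤ |(S.o k : ℝ)| + 2 ^ n := by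
      rw [← abs_of_pos hn', ← abs_mul, abs_of_pos hn']
      have : 2 ^ n * ((S.o k / 2 ^ n : ℤ) : ℝ) = (S.o k : ℝ) - ((S.o k % 2 ^ n : ℤ) : ℝ) := by linarith
      rw [this]
      refine (abs_sub _ _).trans ?_
      rw [abs_of_nonneg e2']
      linarith
    have h3 : (2 : ℝ) ^ ((i + 1) * n) = 2 ^ (i * n) * 2 ^ n := by rw [← pow_add]; congr 1; ring
    have h4 : (2 : ℝ) ^ (i * n) * 2 ^ ((K + (m + 1)) * n) = 2 ^ (2 * K * n) := by
      rw [← pow_add]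
      congr 1
      rw [← add_mul, show i + (K + (m + 1)) = 2 * K by omega]
    have h5 : (2 : ℝ) ^ ((i + 1) * n) ≤ 2 ^ (2 * K * n) :=
      pow_le_pow_right₀ (by norm_num) (Nat.mul_le_mul_right _ (by omega))
    calc 2 ^ ((i + 1) * n) * |((S.o k / 2 ^ n : ℤ) : ℝ)| = 2 ^ (i * n) * (2 ^ n * |((S.o k / 2 ^ n : ℤ) : ℝ)|) := by rw [h3]; ring
      _ ≤ 2 ^ (i * n) * (|(S.o k : ℝ)| + 2 ^ n) := mul_le_mul_of_nonneg_left h2 (by positivity)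
      _ ≤ 2 ^ (i * n) * (B * 2 ^ ((K + (m + 1)) * n) + 2 ^ n) :=
          mul_le_mul_of_nonneg_left (by linarith [ho k]) (by positivity)
      _ = B * (2 ^ (i * n) * 2 ^ ((K + (m + 1)) * n)) + 2 ^ ((i + 1) * n) := by rw [h3]; ring
      _ ≤ B * 2 ^ (2 * K * n) + 2 ^ (2 * K * n) := by rw [h4]; linarith
      _ = (B + 1) * 2 ^ (2 * K * n) := by ring
  have hT' : 2 ^ (2 * i * n) * |(S.T : ℝ)| ≤ 2 ^ (2 * K * n) := by
    have e1 : (0 : ℝ) ≤ S.T := by exact_mod_cast hT0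
    have e2 : (S.T : ℝ) ≤ 2 ^ (2 * (m + 1) * n) := by exact_mod_cast hT.le
    rw [abs_of_nonneg e1]
    calc (2 : ℝ) ^ (2 * i * n) * S.T ≤ 2 ^ (2 * i * n) * 2 ^ (2 * (m + 1) * n) := mul_le_mul_of_nonneg_left e2 (by positivity)
      _ = 2 ^ (2 * K * n) := by
        rw [← pow_add, ← add_mul, ← mul_add, him]
  have h6 : |(F.s.g i S.τ (fun k => S.o k / 2 ^ n) S.T τ' : ℝ)| ≤ C * (2 * B + 4) * 2 ^ (2 * K * n) := by
    refine h1.trans ?_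
    have := ho' 0
    have := ho' 1
    calc _ ≤ C * (2 ^ (2 * K * n) + 2 * ((B + 1) * 2 ^ (2 * K * n)) + 2 ^ (2 * K * n)) := by
          refine mul_le_mul_of_nonneg_left ?_ hC
          rw [mul_add]
          linarith
      _ = C * (2 * B + 4) * 2 ^ (2 * K * n) := by ring
  have h7 : (S.w : ℝ) = ((((S.sg n).ch F.s n i τ').w : ℤ) : ℝ) - (F.s.g i S.τ (fun k => S.o k / 2 ^ n) S.T τ' : ℤ) := by
    rw [hw]; ring
  rw [h7]
  refine (abs_sub _ _).trans ?_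
  linarith

end Vale.Agent.P106.R.C2
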