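import Mathlib

/-! # P106 / R : the powers of the price `N` (helper428)

`pw N t = t ^ (2 + 2/N)`, `rt N x = x ^ (1/N)`; `N = 2` : the cube and the square root. -/

set_option autoImplicit false

namespace Vale.Agent.P106.R.C2

/-- the exponent `2 + 2 / N` -/
noncomputable def pw (N t : ℝ) : ℝ := t ^ (2 + 2 / N)

/-- the exponent `1 / N` -/
noncomputable def rt (N x : ℝ) : ℝ := x ^ (1 / N)

section

variable {N : ℝ}

theorem pw_nonneg (N : ℝ) {t : ℝ} (ht : 0 ≤ t) : 0 ≤ pw N t := Real.rpow_nonneg ht _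

theorem pw_pos (N : ℝ) {t : ℝ} (ht : 0 < t) : 0 < pw N t := Real.rpow_pos_of_pos ht _

theorem rt_nonneg (N : ℝ) {x : ℝ} (hx : 0 ≤ x) : 0 ≤ rt N x := Real.rpow_nonneg hx _

theorem pe_pos (hN : 1 ≤ N) : 0 < 2 + 2 / N := by positivity

theorem two_le_pe (hN : 1 ≤ N) : 2 ≤ 2 + 2 / N := by
  have : 0 ≤ 2 / N := by positivity
  linarith

theorem pe_le (hN : 1 ≤ N) : 2 + 2 / N ≤ 4 := by
  have : 2 / N ≤ 2 := div_le_self (by norm_num) hN
  linarith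

theorem pw_zero (hN : 1 ≤ N) : pw N 0 = 0 := Real.zero_rpow (pe_pos hN).ne'

theorem pw_mono (hN : 1 ≤ N) {s t : ℝ} (hs : 0 ≤ s) (h : s ≤ t) : pw N s ≤ pw N t :=
  Real.rpow_le_rpow hs h (pe_pos hN).le

theorem rt_mono (hN : 1 ≤ N) {s t : ℝ} (hs : 0 ≤ s) (h : s ≤ t) : rt N s ≤ rt N t :=
  Real.rpow_le_rpow hs h (by positivity)

theorem pw_mul {s t : ℝ} (hs : 0 ≤ s) (ht : 0 ≤ t) : pw N (s * t) = pw N s * pw N t := Real.mul_rpow hs ht

theorem rt_mul {s t : ℝ} (hs : 0 ≤ s) (ht : 0 ≤ t) : rt N (s * t) = rt N s * rt N t := Real.mul_rpow hs ht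

/-- `t ^ (2 + 2/N) = (t²) ^ (1/N) t²` -/
theorem pw_eq (hN : 1 ≤ N) {t : ℝ} (ht : 0 ≤ t) : pw N t = rt N (t ^ 2) * t ^ 2 := by
  unfold pw rt
  rcases ht.eq_or_lt with h | h
  · rw [← h, Real.zero_rpow (pe_pos hN).ne']
    simp
  · rw [← Real.rpow_natCast t 2, ← Real.rpow_mul ht, ← Real.rpow_add h]
    congr 1
    push_cast
    ring

theorem pw_le (hN : 1 ≤ N) {t x : ℝ} (ht : 0 ≤ t) (h : t ^ 2 ≤ x) : pw N t ≤ rt N x * t ^ 2 := by
  rw [pw_eq hN ht]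
  exact mul_le_mul_of_nonneg_right (rt_mono hN (by positivity) h) (by positivity)

theorem pw_two_mul (hN : 1 ≤ N) {t : ℝ} (ht : 0 ≤ t) : pw N (2 * t) ≤ 16 * pw N t := by
  rw [pw_mul (by norm_num) ht]
  refine mul_le_mul_of_nonneg_right ?_ (pw_nonneg N ht)
  unfold pw
  calc (2 : ℝ) ^ (2 + 2 / N) ≤ 2 ^ (4 : ℝ) := Real.rpow_le_rpow_of_exponent_le (by norm_num) (pe_le hN)
    _ = 16 := by norm_num

/-- scaling by a small factor -/
theorem pw_div_le (hN : 1 ≤ N) {t q : ℝ} (ht : 0 ≤ t) (hq : 1 ≤ q) : q ^ 2 * pw N (t / q) ≤ pw N t := by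
  have hq0 : 0 < q := by linarith
  have h1 : pw N t = pw N q * pw N (t / q) := by
    rw [← pw_mul hq0.le (by positivity)]
    congr 1
    field_simp
  rw [h1]
  refine mul_le_mul_of_nonneg_right ?_ (pw_nonneg N (by positivity))
  unfold pw
  rw [← Real.rpow_natCast q 2]
  exact Real.rpow_le_rpow_of_exponent_le hq (by push_cast; exact two_le_pe hN)

theorem pw_rpow {x : ℝ} : pw N ((2 : ℝ) ^ x) = 2 ^ ((2 + 2 / N) * x) := by
  unfold pw
  rw [← Real.rpow_mul (by norm_num), mul_comm]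

theorem rt_rpow {x : ℝ} : rt N ((2 : ℝ) ^ x) = 2 ^ (x / N) := by
  unfold rt
  rw [← Real.rpow_mul (by norm_num)]
  congr 1
  ring

/-- `t ^ (2 + 2/N)` of a sum -/
theorem pw_sum_le (hN : 1 ≤ N) {ι : Type*} (s : Finset ι) (f : ι → ℝ) (hf : ∀ i ∈ s, 0 ≤ f i) (m : ℕ) (hm : s.card ≤ m) :
    pw N (∑ i ∈ s, f i) ≤ (m : ℝ) ^ 4 * ∑ i ∈ s, pw N (f i) := by
  classical
  rcases s.eq_empty_or_nonempty with rfl | hne
  · simp [pw_zero hN]
  obtain ⟨i0, hi0, hmax⟩ := s.exists_max_image f hne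
  have h1 : ∑ i ∈ s, f i ≤ m * f i0 := by
    calc ∑ i ∈ s, f i ≤ ∑ i ∈ s, f i0 := Finset.sum_le_sum hmax
      _ = s.card * f i0 := by rw [Finset.sum_const, nsmul_eq_mul]
      _ ≤ m * f i0 := mul_le_mul_of_nonneg_right (by exact_mod_cast hm) (hf i0 hi0)
  have hm1 : (1 : ℝ) ≤ m := by exact_mod_cast le_trans (Finset.card_pos.2 hne) hm
  calc pw N (∑ i ∈ s, f i) ≤ pw N (m * f i0) := pw_mono hN (Finset.sum_nonneg hf) h1
    _ = pw N m * pw N (f i0) := pw_mul (by positivity) (hf i0 hi0)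
    _ ≤ (m : ℝ) ^ 4 * ∑ i ∈ s, pw N (f i) := by
        refine mul_le_mul ?_ (Finset.single_le_sum (f := fun i => pw N (f i)) (fun i hi => pw_nonneg N (hf i hi)) hi0)
          (pw_nonneg N (hf i0 hi0)) (by positivity)
        unfold pw
        rw [← Real.rpow_natCast (m : ℝ) 4]
        exact Real.rpow_le_rpow_of_exponent_le hm1 (by push_cast; exact pe_le hN)

end

end Vale.Agent.P106.R.C2
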