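import Vale.Agent.P106.R.C.Val

/-! # P106 / R, copy of P122 / C : [B2] as a count, and small counting lemmas for valid structures (helper20) -/

set_option autoImplicit false

namespace Vale.Agent.P106.R.C2

open Finset

section

variable {C : ℝ} {n K : ℕ} (F : Amp C n K)

open Classical in
/-- the direction of the columns of the cap `τ` (level `i`) for the direction `θ` -/
noncomputable def psi (i : ℕ) (τ : Z2) (θ : ℝ) : Fin 2 → ℝ :=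
  if h : 1 ≤ i ∧ i < K ∧ Cap n i τ then (F.B2 i τ θ h.1 h.2.1 h.2.2).choose else 0

theorem psi_spec {i : ℕ} (h1 : 1 ≤ i) (hi : i < K) {τ : Z2} (hτ : Cap n i τ) (θ : ℝ) :
    |psi F i τ θ 0| ≤ C ∧ |psi F i τ θ 1| ≤ C ∧
    (∀ τ' ∈ kids n τ, ∀ τ'' ∈ kids n τ, |(τ' 0 : ℝ) - τ'' 0| + |(τ' 1 : ℝ) - τ'' 1| ≤
      C * (|psi F i τ θ 0 * (τ' 0 - τ'' 0) + psi F i τ θ 1 * (τ' 1 - τ'' 1)| +
        2 ^ ((i + 1) * n) * |fn θ (F.s (i + 1) τ') - fn θ (F.s (i + 1) τ'')| + 1)) ∧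
    ∀ (σ : Nd) (G : Finset Z2) (k : ℕ), σ.τ = τ → G ⊆ kids n τ →
      (∀ r : ℝ, (G.filter fun τ' => |psi F i τ θ 0 * τ' 0 + psi F i τ θ 1 * τ' 1 - r| ≤ 1).card ≤ k) →
      ∀ (U : Finset Nd) (r : ℝ), (∀ S ∈ U, S.sg n = σ ∧ |fn θ (fun j => (S.o j : ℝ)) - r| ≤ 1) →
        ∑ S ∈ U, F.A i S G ^ 2 ≤ C * 2 ^ n * k * ∑ τ' ∈ G, F.a (i + 1) (σ.ch F.s n i τ') ^ 2 := by
  have h : 1 ≤ i ∧ i < K ∧ Cap n i τ := ⟨h1, hi, hτ⟩
  have e : psi F i τ θ = (F.B2 i τ θ h.1 h.2.1 h.2.2).choose := by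
    unfold psi
    exact dif_pos h
  rw [e]
  exact (F.B2 i τ θ h.1 h.2.1 h.2.2).choose_spec

variable {F}

/-- [B2] : number of reached nodes with the same piece `σ` in a strip of direction `θ` (width `2` radii), if the columns of
the child set have at most `k` elements -/
theorem Val.Ok.B2 {V : Val} {ρ : ℝ} {a : ℕ → ℝ} {J : ℕ → ℕ} (h : V.Ok F ρ a J) (hρ : 0 < ρ) (hC : 0 ≤ C)
    {i : ℕ} (h1i : 1 ≤ i) (hi : i < K) (σ : Nd) (θ : ℝ) (k : ℕ)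
    (hk : ∀ r : ℝ, ((V.G i σ).filter fun τ' => |psi F i σ.τ θ 0 * τ' 0 + psi F i σ.τ θ 1 * τ' 1 - r| ≤ 1).card ≤ k)
    (U : Finset Nd) (hU : U ⊆ V.D F.s n i) (r : ℝ)
    (hσ : ∀ S ∈ U, S.sg n = σ ∧ |fn θ (fun j => (S.o j : ℝ)) - r| ≤ 1) :
    (U.card : ℝ) * (ρ * a i) ^ 2 ≤ 8 * C * 2 ^ n * k * 2 ^ J i * a (i + 1) ^ 2 := by
  rcases U.eq_empty_or_nonempty with rfl | ⟨S0, hS0⟩
  · simp only [Finset.card_empty, Nat.cast_zero, zero_mul]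
    positivity
  have hS0' := hU hS0
  have e0 := (hσ S0 hS0).1
  have hcap : Cap n i σ.τ := by
    have := h.cap i hi.le S0 hS0'
    rw [← e0]
    exact this
  have hkid : V.G i σ ⊆ kids n σ.τ := by
    have := h.kid i hi S0 hS0'
    rw [e0] at this
    rw [← e0]
    rw [← e0] at this
    exact this
  have h1 := (psi_spec F h1i hi hcap θ).2.2.2 σ (V.G i σ) k rfl hkid hk U r hσ
  have h2 := h.sum_sq hi hS0'
  rw [e0] at h2
  have h3 : U.card • (ρ * a i) ^ 2 ≤ ∑ S ∈ U, F.A i S (V.G i σ) ^ 2 := by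
    refine Finset.card_nsmul_le_sum _ _ _ fun S hS => ?_
    have k1 := h.sum i hi S (hU hS)
    rw [(hσ S hS).1] at k1
    have k2 := (h.amp i hi.le S (hU hS)).1
    have k3 := h.apos i hi.le
    refine pow_le_pow_left₀ (by positivity) (le_trans ?_ k1) 2
    exact mul_le_mul_of_nonneg_left k2 hρ.le
  rw [nsmul_eq_mul] at h3
  calc _ ≤ _ := h3
    _ ≤ _ := h1
    _ ≤ C * 2 ^ n * k * (8 * 2 ^ J i * a (i + 1) ^ 2) := mul_le_mul_of_nonneg_left h2 (by positivity)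
    _ = 8 * C * 2 ^ n * k * 2 ^ J i * a (i + 1) ^ 2 := by ring

end

end Vale.Agent.P106.R.C2
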